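import Vale.Agent.P014Y.F.Sp.Spl

/-! # P014Z, block F: the row `SPL` at every odd prime -/

set_option linter.all false

open scoped Classical
open WeierstrassCurve WeierstrassCurve.Affine P179W NumberField

noncomputable section

namespace Vale.Agent.P014Z.F

open Vale.Agent.P014T Vale.Agent.P014T.Lc Vale.Agent.P014T.Vc Vale.Agent.P014T.Sm Vale.Agent.P004F
open Vale.Agent.P014T.Gt (IsF Wc Wc_md Wc_nd)
open Vale.Agent.P014U.Gt hiding units ex_it good
open Vale.Agent.P004M.TE (Qb GQ Pt ga Cv cs)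
open Vale.Agent.P022E.GW (Ov)
open Vale.Agent.P027M.S (Inert)
open P014Y.F P014Y.F.Sp P014U P027M.K
open P014U.X4M.TE (bs)
open Qx (Fk Ur)

/-- the points killed by `p` form a line -/
def Rk (G : Type) [AddCommGroup G] (p : ℕ) : Prop :=
  ∀ R S : G, p • R = 0 → p • S = 0 → S ≠ 0 → ∃ i : ℤ, R = i • S

theorem rk_of {G : Type} [AddCommGroup G] {p : ℕ} [hp : Fact p.Prime]
    (h : ∀ s : Finset G, (∀ Q ∈ s, (p : ℤ) • Q = 0) → s.card < p * p) : Rk G p := by
  intro R S r s s0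
  rw [← natCast_zsmul] at r s
  by_contra! n
  have k : ∀ (T : G) (i : ℤ), (p : ℤ) • T = 0 → ¬ (p : ℤ) ∣ i → ∃ u : ℤ, T = u • i • T :=
    fun T i a b => by
      obtain ⟨x, y, e⟩ := ((Nat.prime_iff_prime_int.1 hp.1).coprime_iff_not_dvd).2 b
      exact ⟨y, by linear_combination (norm := module) x • a - e • T⟩
  have j : ∀ i j : ℤ, i • R + j • S = 0 → (p : ℤ) ∣ i ∧ (p : ℤ) ∣ j := fun i j e => by
    have a : (p : ℤ) ∣ i := by_contra fun c => by
      obtain ⟨u, d⟩ := k R i r c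
      exact n (-(u * j)) (by linear_combination (norm := module) d + u • e)
    refine ⟨a, by_contra fun c => ?_⟩
    obtain ⟨u, d⟩ := k S j s c
    obtain ⟨i, rfl⟩ := a
    exact s0 (by linear_combination (norm := module) d + u • e - (u * i) • r)
  have c : ∀ {x y : ZMod p}, (p : ℤ) ∣ y.cast - x.cast → x = y := fun d => by
    simpa using (ZMod.intCast_eq_intCast_iff_dvd_sub _ _ p).2 d
  have := h (Finset.univ.image fun z : ZMod p × ZMod p => (z.1.cast : ℤ) • R + (z.2.cast : ℤ) • S)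
    fun Q m => by
      obtain ⟨z, -, rfl⟩ := Finset.mem_image.1 m
      linear_combination (norm := module) (z.1.cast : ℤ) • r + (z.2.cast : ℤ) • s
  rw [Finset.card_image_of_injective _ fun z w e => (j (w.1.cast - z.1.cast) (w.2.cast - z.2.cast)
    (by linear_combination (norm := module) -e)).elim fun a b => Prod.ext (c a) (c b)] at this
  simp at this

/-- **the `p`-torsion in characteristic `p` has rank at most one** -/
theorem rk_short {p : ℕ} [hp : Fact p.Prime] {κ : Type} [Field κ] [IsAlgClosed κ]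
    [Algebra (ZMod p) κ] {a b : ZMod p} {V : WeierstrassCurve κ} (hV : V = Cv κ a b) (h2 : p ≠ 2)
    (hD : 4 * a ^ 3 + 27 * b ^ 2 ≠ 0) : Rk V.toAffine.Point p := by
  subst hV
  have hF : ringChar (ZMod p) ≠ 2 := by rwa [ZMod.ringChar_zmod_n]
  have p2 : 2 < p := hp.1.two_le.lt_of_ne' h2
  refine rk_of fun s k => ?_
  have := P004M.TE.ker_card (κ := κ) hF hD (n := -cs a b) (by rw [ZMod.card]; nlinarith) s
    fun Q m => P004M.TE.pa_inj (FiniteField.frobeniusAlgHom (ZMod p) κ) (by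
      have := P004M.TE.frob_ch hF hD Q
      rw [ZMod.card, k Q m, add_zero] at this
      exact (eq_neg_of_add_eq_zero_left this).trans (by rw [map_zsmul, neg_zsmul]; rfl))
  rw [ZMod.card] at this
  nlinarith

variable {W : WeierstrassCurve ℤ} {p : ℕ} {P : Ideal (𝓞 Qb)} {A B : ℤ}

theorem rk_w [Fact p.Prime] (h2 : p ≠ 2) (h1 : W.a₁ = 0) (h3 : W.a₃ = 0) (k : (p : ℤ) ∣ W.a₂)
    (hg : ¬ (p : ℤ) ∣ W.Δ) (κ : Type) [Field κ] [IsAlgClosed κ] [CharP κ p] :
    Rk (W⁄κ).toAffine.Point p := by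
  letI : Algebra (ZMod p) κ := ZMod.algebra κ p
  have e : W.map (Int.castRingHom (ZMod p)) = P004N.H169.LF.sw (W.a₄ : ZMod p) W.a₆ := by
    ext <;> simp [P004N.H169.LF.sw, h1, h3, ZMod.intCast_zmod_eq_zero_iff_dvd, k]
  have d := P014T.Gt.dz hg
  rw [e, P004N.H169.LF.sw_Δ] at d
  refine rk_short ?_ h2 (right_ne_zero_of_mul d)
  ext
  exacts [(congrArg _ h1).trans Int.cast_zero, (CharP.intCast_eq_zero_iff κ p _).2 k,
    (congrArg _ h3).trans Int.cast_zero, (map_intCast _ _).symm, (map_intCast _ _).symm]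

/-- **the unramified points modulo the tower** -/
theorem hlv {u r s t : ℚ} (h : Md (Wq W) A B u r s t) (o : Ov p P)
    (rk : ∀ (κ : Type) [Field κ] [IsAlgClosed κ] [CharP κ p], Rk (W⁄κ).toAffine.Point p)
    {R : ℕ → Pt A B} (T : Tr p R) (f : ∀ n g, Inert P g → ga g (R n) = R n)
    (hg : ¬ (p : ℤ) ∣ W.Δ) {m : ℕ} (z : R m ≠ 0) {κ : ℕ} (κ0 : κ ≠ 0) :
    ∃ c : ℕ, ∀ y : Pt A B, Ur P y → ∃ (n k : ℕ) (i : ℤ), ¬ p ∣ n ∧
      Fk P κ ((p ^ c * n) • y - p ^ c • i • R k) := by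
  obtain ⟨O, hO⟩ := Qx.Fg.ex_O o.2.1 (Qx.Fg.ne_bot o.1.ne_zero o.2.2)
  have H := lv_of o hO
  obtain ⟨c, hc⟩ := deep h o hO κ0
  obtain ⟨κ', _, _, _, rd, i, K⟩ := H.ex_rd W
  have : Fact p.Prime := ⟨H.hp⟩
  have tp : ∀ Q, Q ∈ E0 (cf W O) := fun _ => top1 (cf W O) (eΔ.1 ▸ H.one hg) ▸ trivial
  let ρ := rd.comp ((AddMonoidHom.id _).codRestrict _ tp)
  have T' := T.map (iso h Qb).symm.toAddMonoidHom
  have U := fun n => ug_iso h (f n)
  have C := cyc (T'.map ρ) (m := m + 1) (fun e => z (by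
    have := k_tor H (i _ e) (U _) (T'.tor _)
    simpa using (T'.2 m).symm.trans this)) (rk κ')
  obtain ⟨φ, k⟩ := P022D.W.exists_phi o.1 o.2.1 o.2.2
  refine ⟨c, fun y a => ?_⟩
  obtain ⟨d, d0, e⟩ := ex_fix φ y
  have F : IsF (p ^ d) (Point.map (W' := W) (iterateFrobenius κ' p d).toIntAlgHom) :=
    fun x y h => ⟨_, rfl⟩
  obtain ⟨m1, e1⟩ := K (φ ^ d) (p ^ d) (pow_ne_zero _ o.1.ne_zero) (Qx.Fg.frob_pow k d) _ F
    ⟨(iso h Qb).symm y, tp _⟩
  obtain ⟨l, l0, e2⟩ := (fin_ord (Nat.one_lt_pow d0 o.1.one_lt) F (e1.symm.trans (congrArg rd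
    (Subtype.ext ((iso h Qb).injective (by simp [iso_act, e])))))).exists_nsmul_eq_zero
  obtain ⟨j, n, n0, rfl⟩ := Nat.exists_eq_pow_mul_and_not_dvd l0.ne' p o.1.ne_one
  obtain ⟨j', w, e3⟩ := C j (ρ (n • (iso h Qb).symm y)) (by rw [map_nsmul, ← mul_smul]; exact e2)
  refine ⟨n, j', w, n0, ?_⟩
  have := hc (n • (iso h Qb).symm y - w • (iso h Qb).symm (R j'))
    (sub_mem (nsmul_mem (ug_iso h a) n) (zsmul_mem (U _) w)) (i ⟨_, tp _⟩ (by
      refine (map_sub ρ _ _).trans ?_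
      rw [e3, map_zsmul]
      exact sub_self _))
  simpa only [map_nsmul, map_sub, map_zsmul, AddEquiv.apply_symm_apply, nsmul_sub, ← mul_smul]
    using this

variable [Pp]

/-- **row SPL** -/
theorem spl : P014Y.F.SPL := by
  by_cases h3 : pp = 3
  · exact Sp.spl h3
  intro e ⟨v, h⟩ κ hκ
  obtain ⟨x, rfl⟩ := (bs (hq e.par.disc)).equivFun.surjective v
  obtain ⟨-, T, f, m, z⟩ := tower h
  obtain ⟨W, u, r, s, t, k, d, hm⟩ := ex_md e.par.disc
  have o := e.ov pp e.pm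
  obtain ⟨c, q⟩ := ZMod.intCast_surjective (-(W.b₂ : ZMod pp) / 3)
  have hg := Wc_nd pp_prime pp_ne_two c (good k o T f d hm z)
  obtain ⟨u, r, s, t, k⟩ := Wc_md k c
  obtain ⟨c₀, H⟩ := hlv k o (rk_w pp_ne_two rfl rfl (by
    have : (3 : ZMod pp) ≠ 0 := by exact_mod_cast Sg.cast_ne Nat.prime_three h3
    refine (ZMod.intCast_zmod_eq_zero_iff_dvd _ pp).1 ?_
    rw [Wc]; push_cast; rw [q]; field_simp; ring) hg) T f hg z hκ
  refine ⟨c₀, fun y a => ?_⟩
  obtain ⟨n, j, i, b, d⟩ := H y a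
  exact ⟨n, j, _, b, by rw [smul_comm, smul_comm (pp ^ j), T.tor, zsmul_zero, nsmul_zero],
    fun g m => by rw [map_nsmul, map_zsmul, f j g m], d⟩

end Vale.Agent.P014Z.F
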