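import Vale.Agent.P014Y.F.All
import Vale.Agent.P014Y.F.En.Nsa
import Vale.Agent.P014Z.F.Spl

/-! # P014Z, block F at every odd prime: the wiring -/

namespace Vale.Agent.P014Z.F

open Vale.Agent.P004K Vale.Agent.P014U Vale.Agent.P014Y.F

variable [Pp]

theorem rows (l : LGC) [Pa.Om] : Fx.Rows :=
  ⟨Pa.sqx x_rc1 x_rc2 (P014Y.Es.es spl x_rc1 x_rc2) z_pe z_dpl z_cnt
      (Pa.sep x_rc1 x_rc2 En.uni_row En.nsa),
    Pa.glb x_rc1 x_rc2 Ch.abs l, Pa.lmx z_lev, Pa.lok Pa.pk1,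
    Pa.lis (Pa.isl Rc.rec' x_rc1 x_rc2) (Pa.eta x_rc2 (van x_rc2) Pa.twv),
    Pa.lex Pa.pk1 z_kpx (Pa.lmx z_lev) (Pa.exl x_rc1 x_rc2), Pa.num⟩

/-- **the lower bound from the anchor** -/
theorem fx_all (l : LGC) : FX := Fx.fx kg ord (rows l)

/-- **the upper bound** -/
theorem fu_all (l : LGC) : FU := Fx.fu kg ord (rows l)

end Vale.Agent.P014Z.F
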